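import Vale.Agent.P254.SP.POS.Two
import Vale.Agent.P254.SP.H462.Fin
import Vale.Agent.P254.SP.H65.Face
import Vale.Agent.P254.S.H979.Push

/-! P254, SP-POS, unconditional (assembly helper216; P1 helper302, P2/EXU helper911, P3 helper462,
P4 helper65 and helper800, push-forward helper979) -/

namespace Vale.Agent.P254.SP.Pos

/-- **SP-POS** for an abstract function `g` -/
theorem stmtPosG : StmtPosG :=
  stmtPosG_of SP302.stmtZero (H462.stmtCont S.H979.stmtPush) (H65.stmtFace S.H979.stmtPush) stmtEXU

/-- **SP-POS**: the position `E G = 0` -/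
theorem stmtPos : SP.StmtPos := stmtPos_of stmtPosG

end Vale.Agent.P254.SP.Pos
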