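import Vale.Agent.P254.SP.POS.Asm
import Vale.Agent.P254.SP.POS.EXU
import Vale.Agent.P254.SP.H302.ZeroStmt

/-! P254, SP-POS: the position from `StmtCont` (P3) and `StmtFace` (P4), the other two rows discharged -/

namespace Vale.Agent.P254.SP.Pos

/-- `StmtCont → StmtFace → SP.StmtPos` -/
theorem stmtPos_of_two (h3 : StmtCont) (h4 : StmtFace) : SP.StmtPos :=
  stmtPos_of (stmtPosG_of SP302.stmtZero h3 h4 stmtEXU)

end Vale.Agent.P254.SP.Pos
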